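import Vale.Agent.P216.Defs

/-! One parameter groups of isometries. -/

namespace Vale.Agent.P216

open Vale.Agent.P255 Vale.Agent.P234

variable {E M : Type*} [NormedAddCommGroup E] [NormedSpace ℝ E] [TopologicalSpace M]
  [ChartedSpace E M] (g : Metric E M)

/-- A continuous one parameter group of maps preserving the Riemannian distance. -/
structure IsoFlow (ψ : ℝ → M → M) : Prop where
  zero : ∀ x, ψ 0 x = x
  add : ∀ s t x, ψ (s + t) x = ψ s (ψ t x)
  cont : ∀ x, Continuous fun t => ψ t x
  iso : ∀ t x y, rdist g (ψ t x) (ψ t y) = rdist g x y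

end Vale.Agent.P216
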