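import Vale.Agent.P216B.KGrp
import Vale.Agent.P216B.FlowA

/-! P216B FlowB (TASK, helper names start with flowb_).
flow_sub: in the product space X → X the sets R f = (fun t => ψ t ∘ f) '' Icc 0 |T| = range (fun t => ψ t ∘ f) are compact (periodicity,
Function.Periodic.image_Icc or exists_mem_Ico₀), so closed.  u = R 1, v = the finite union of the R f, f ∈ F not of the form e t; they are
disjoint; range ψ' is preconnected, contained in u ∪ v and contains id (isPreconnected_iff_subset_of_disjoint_closed).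
flow_main: hD from expand.  TrG X is infinite (flow_mem, flow_triv), so by fin_of_no_inv and cl_TrG it has an involution σ ≠ 1, without fixed
point by trg_free; cg_free gives γ.  F = the finite set of stab_fin at γ 0.  Some ψ t moves γ 0 (else range e ⊆ F, flow_triv), so flow_trans
applies.  Periodicity: with τ the period, a, δ from LG and m with τ / m ≤ δ, take t for b = τ / m; t ≠ 0 since γ b ≠ γ 0, e (m t) ∈ F, all
powers e (k m t) ∈ F, so two agree (Set.Finite.exists_lt_map_eq_of_forall_mem) and ψ T = id for T = (k' - k) m t ≠ 0.  flow_half and trg_free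
give the first part; for the second, e' s acts on γ like some e t, so (e t)⁻¹ * e' s ∈ F and flow_sub applies. -/

open Set Filter Topology

noncomputable section

namespace Vale.Agent.P216

variable {X : Type} [MetricSpace X]

theorem flowb_closed {ψ : ℝ → X → X} (hψ : MFlow ψ) {T : ℝ} (hT : T ≠ 0) (h : ∀ x, ψ T x = x)
    (f : X → X) : IsClosed (range fun t x => ψ t (f x)) := by
  refine (Function.Periodic.compact_of_continuous (c := T) (fun t => ?_) hT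
    (continuous_pi fun x => hψ.cont (f x))).isClosed
  funext x
  simp only [hψ.add, h]

theorem flowb_per {F : Set (X ≃ᵢ X)} {ψ : ℝ → X → X} (hψ : MFlow ψ) {γ : ℝ → X} (hγ : CG γ)
    (htr : ∀ b, ∃ t, ∀ s, ψ t (γ s) = γ (s + b)) (hF : {t | ψ t (γ 0) = γ 0} ⊆ hψ.e ⁻¹' F)
    (hf : F.Finite) : ∃ T, T ≠ 0 ∧ ∀ x, ψ T x = x := by
  obtain ⟨⟨a, ha, δ, hδ, hL⟩, τ, hτ, hp⟩ := hγ
  obtain ⟨m, hm⟩ := exists_nat_gt (τ / δ)
  have hm0 : (0 : ℝ) < m := lt_trans (by positivity) hm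
  have hb : τ / m ≤ δ := by
    rw [div_lt_iff₀ hδ] at hm
    rw [div_le_iff₀ hm0]
    linarith
  have hb0 : 0 < τ / m := by positivity
  obtain ⟨t, ht⟩ := htr (τ / m)
  have ht0 : t ≠ 0 := by
    rintro rfl
    have h1 := hL (τ / m) 0 (by rwa [sub_zero, abs_of_pos hb0])
    have h2 := ht 0
    rw [hψ.zero, zero_add] at h2
    rw [← h2, dist_self, sub_zero, abs_of_pos hb0] at h1
    exact (mul_pos ha hb0).ne h1
  have hk : ∀ k : ℕ, ψ (k * t) (γ 0) = γ (k * (τ / m)) := fun k => by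
    induction k with
    | zero => simp [hψ.zero]
    | succ k ih => rw [Nat.cast_succ, add_mul, one_mul, add_comm, hψ.add, ih, ht, add_mul, one_mul]
  have hk' : ∀ k : ℕ, hψ.e ((k * m : ℕ) * t) ∈ F := fun k => by
    refine hF ?_
    have e : ((k * m : ℕ) : ℝ) * (τ / m) = 0 + k * τ := by
      push_cast
      field_simp
      ring
    rw [mem_ofPred_eq, hk, e]
    exact Function.Periodic.nat_mul (f := γ) hp k 0
  obtain ⟨k, k', hlt, e⟩ := hf.exists_lt_map_eq_of_forall_mem hk'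
  refine ⟨-((k * m : ℕ) * t) + (k' * m : ℕ) * t, ?_, fun x => ?_⟩
  · have h1 : (k : ℝ) < k' := by exact_mod_cast hlt
    have h2 : -(((k * m : ℕ) : ℝ) * t) + (k' * m : ℕ) * t = (k' - k) * m * t := by
      push_cast
      ring
    rw [h2]
    exact mul_ne_zero (mul_pos (sub_pos.2 h1) hm0).ne' ht0
  · rw [← hψ.e_apply, hψ.e_add, hψ.e_neg, e, inv_mul_cancel]
    rfl

theorem flow_sub {ψ ψ' : ℝ → X → X} (hψ : MFlow ψ) (hψ' : MFlow ψ') {T : ℝ} (hT : T ≠ 0)
    (h : ∀ x, ψ T x = x) {F : Set (X ≃ᵢ X)} (hF : F.Finite)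
    (hs : ∀ s, ∃ t, ∃ f ∈ F, hψ'.e s = hψ.e t * f) (s : ℝ) : ∃ t, ψ' s = ψ t := by
  have hu : IsClosed (range ψ) := flowb_closed hψ hT h id
  have hv : IsClosed (⋃ f ∈ {f ∈ F | ∀ t, ⇑f ≠ ψ t}, range fun t x => ψ t (f x)) :=
    (hF.subset (sep_subset _ _)).isClosed_biUnion fun f _ => flowb_closed hψ hT h f
  have hd : ∀ g ∈ range ψ, g ∉ ⋃ f ∈ {f ∈ F | ∀ t, ⇑f ≠ ψ t}, range fun t x => ψ t (f x) := by
    rintro _ ⟨t, rfl⟩ hg
    obtain ⟨f, hf, t', e⟩ := mem_iUnion₂.1 hg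
    refine hf.2 (-t' + t) (funext fun x => ?_)
    rw [hψ.add, ← congrFun e x, ← hψ.add, neg_add_cancel, hψ.zero]
  have hc : IsPreconnected (range ψ') := isPreconnected_range (continuous_pi hψ'.cont)
  refine (isPreconnected_iff_subset_of_disjoint_closed.1 hc _ _ hu hv ?_
    (eq_empty_of_forall_notMem fun g hg => hd g hg.2.1 hg.2.2)).elim (fun h1 => ?_) fun h1 => ?_
  rotate_left
  · obtain ⟨t, ht⟩ := h1 ⟨s, rfl⟩
    exact ⟨t, ht.symm⟩
  · exact (hd _ ⟨0, funext fun x => by rw [hψ.zero, hψ'.zero]⟩ (h1 ⟨0, rfl⟩)).elim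
  · rintro _ ⟨r, rfl⟩
    obtain ⟨t, f, hf, e⟩ := hs r
    have e' : ∀ x, ψ' r x = ψ t (f x) := fun x => DFunLike.congr_fun e x
    by_cases h2 : ∀ t, ⇑f ≠ ψ t
    · exact Or.inr (mem_iUnion₂.2 ⟨f, ⟨hf, h2⟩, t, funext fun x => (e' x).symm⟩)
    · push Not at h2
      obtain ⟨t', h2⟩ := h2
      exact Or.inl ⟨t + t', funext fun x => by rw [hψ.add, e', h2]⟩

theorem flow_main [CompactSpace X] [PathConnectedSpace X] (S : Seg X) (hNB : NB X) (hE : Ess X)
    (hX : Ext X) (hfin : {T : Set X | ∃ γ, CG γ ∧ T = range γ}.Finite) {ψ : ℝ → X → X}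
    (hψ : MFlow ψ) (hne : ∃ t x, ψ t x ≠ x) :
    (∃ T, (∀ x, ψ T (ψ T x) = x) ∧ ∀ p, ψ T p ≠ p) ∧
      ∀ ψ' : ℝ → X → X, MFlow ψ' → ∀ s, ∃ t, ψ' s = ψ t := by
  have hD := expand S hNB hX
  have hmem := flow_mem hNB hfin hψ
  have hnf : ¬ (range hψ.e).Finite := fun h => by
    obtain ⟨t, x, hx⟩ := hne
    exact hx (flow_triv hψ h t x)
  obtain ⟨σ, hσ, h2, h1⟩ : ∃ σ ∈ TrG X, σ * σ = 1 ∧ σ ≠ 1 := by
    by_contra hc
    push Not at hc
    exact hnf ((fin_of_no_inv hD cl_TrG hc).subset (range_subset_iff.2 hmem))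
  obtain ⟨γ, hγ⟩ := cg_free S σ.isometry (fun x => DFunLike.congr_fun h2 x)
    fun x hx => h1 (trg_free S hE hσ h2 hx)
  have hF := stab_fin S hE hD (γ 0)
  have hmv : ∃ t, ψ t (γ 0) ≠ γ 0 := by
    by_contra hc
    push Not at hc
    exact hnf (hF.subset (range_subset_iff.2 fun t => ⟨hmem t, hc t⟩))
  have htr := flow_trans hψ hγ (fun t => hmem t γ hγ) hmv
  obtain ⟨T, hT, hTx⟩ := flowb_per (F := {a : X ≃ᵢ X | a ∈ TrG X ∧ a (γ 0) = γ 0}) hψ hγ htr
    (fun t ht => ⟨hmem t, ht⟩) hF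
  refine ⟨?_, fun ψ' hψ' => flow_sub hψ hψ' hT hTx hF fun s => ?_⟩
  · obtain ⟨t, ht, x, hx⟩ := flow_half hψ hne hT hTx
    refine ⟨t, ht, fun p hp => hx ?_⟩
    exact DFunLike.congr_fun (trg_free S hE (hmem t) (IsometryEquiv.ext ht) hp) x
  · have hm' := flow_mem hNB hfin hψ' s
    obtain ⟨b, hb⟩ := hm' γ hγ
    obtain ⟨t, ht⟩ := htr b
    refine ⟨t, (hψ.e t)⁻¹ * hψ'.e s, ⟨mul_mem (inv_mem (hmem t)) hm', ?_⟩,
      (mul_inv_cancel_left _ _).symm⟩
    rw [IsometryEquiv.mul_apply, hb, ← ht, ← hψ.e_apply, IsometryEquiv.inv_apply_self]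

end Vale.Agent.P216
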