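import Vale.Agent.P216B.IsoI
import Vale.Agent.P216.Grp

/-! P216B KGrp (TASK, helper names start with kgrp_).
cl_TrG: for η = 1 / (n + 1) get b n, moved into Icc 0 τ by the period (toIcoMod, Function.Periodic.sub_zsmul_eq, or Periodic.exists_mem_Ico₀
for b ↦ (t ↦ γ (t + b))); IsCompact.tendsto_subseq, lg_cont.
trg_free: if a ≠ 1, cg_ref gives γ with γ (-t) = a (γ t) = γ (t + b), against not_even.
stab_fin: fin_of_no_inv for the subgroup {a ∈ TrG X | a p = p} (define it directly; it is Cl), trg_free.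
flow_mem: shift for G = Multiplicative ℝ acting by a • x = ψ a.toAdd x (local MulAction structure, letI). -/

open Set Filter Topology

noncomputable section

namespace Vale.Agent.P216

variable {X : Type} [MetricSpace X]

theorem cl_TrG : Cl (TrG X) := by
  intro a ha
  rw [mem_TrG]
  intro γ hγ
  obtain ⟨⟨v, -, hv⟩, τ, hτ, hper⟩ := id hγ
  have hc := lg_cont hv
  have hP : Function.Periodic (fun b : ℝ => fun t : ℝ => γ (t + b)) τ := by
    intro b
    funext t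
    show γ (t + (b + τ)) = γ (t + b)
    rw [← add_assoc, hper]
  have key : ∀ n : ℕ, ∃ b ∈ Icc (0 : ℝ) τ, ∀ t, dist (a (γ t)) (γ (t + b)) ≤ 1 / ((n : ℝ) + 1) := by
    intro n
    obtain ⟨c, hc1, hc2⟩ := ha (1 / ((n : ℝ) + 1)) (by positivity)
    obtain ⟨b, hb⟩ := mem_TrG.1 hc1 γ hγ
    obtain ⟨b', hb1, hb2⟩ := hP.exists_mem_Ico₀ hτ b
    refine ⟨b', Ico_subset_Icc_self hb1, fun t => ?_⟩
    have h3 : γ (t + b) = γ (t + b') := congrFun hb2 t
    rw [← h3, ← hb]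
    exact hc2 _
  choose b hb1 hb2 using key
  obtain ⟨b₀, -, φ, hφ, hlim⟩ := isCompact_Icc.tendsto_subseq hb1
  refine ⟨b₀, fun t => ?_⟩
  have h1 : Tendsto (fun n => dist (a (γ t)) (γ (t + b (φ n)))) atTop
      (𝓝 (dist (a (γ t)) (γ (t + b₀)))) :=
    tendsto_const_nhds.dist ((hc.tendsto _).comp (tendsto_const_nhds.add hlim))
  have h2 : Tendsto (fun n => 1 / (((φ n : ℕ) : ℝ) + 1)) atTop (𝓝 0) :=
    tendsto_one_div_add_atTop_nhds_zero_nat.comp hφ.tendsto_atTop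
  exact dist_le_zero.1 (le_of_tendsto_of_tendsto' h1 h2 fun n => hb2 (φ n) t)

theorem trg_free [CompactSpace X] [PathConnectedSpace X] (S : Seg X) (hE : Ess X) {a : X ≃ᵢ X}
    (ha : a ∈ TrG X) (h2 : a * a = 1) {p : X} (hp : a p = p) : a = 1 := by
  by_contra hne
  have h3 : ∃ q, a q ≠ q := by
    by_contra h4
    push Not at h4
    exact hne (IsometryEquiv.ext h4)
  obtain ⟨q, hq⟩ := h3
  have h5 : ∀ x, a (a x) = x := fun x => by
    rw [← IsometryEquiv.mul_apply, h2]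
    rfl
  obtain ⟨γ, hγ, hr⟩ := cg_ref S hE a.isometry h5 hp hq
  obtain ⟨b, hb⟩ := mem_TrG.1 ha γ hγ
  exact not_even hγ b fun t => (hr t).trans (hb t)

/-- The stabilizer of `p` in `TrG X`. -/
def kgrp_stab (p : X) : Subgroup (X ≃ᵢ X) where
  carrier := {a | a ∈ TrG X ∧ a p = p}
  one_mem' := ⟨one_mem _, rfl⟩
  mul_mem' := by
    intro a b ha hb
    exact ⟨mul_mem ha.1 hb.1, by rw [IsometryEquiv.mul_apply, hb.2, ha.2]⟩
  inv_mem' := by
    intro a ha
    refine ⟨inv_mem ha.1, a.injective ?_⟩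
    rw [IsometryEquiv.apply_inv_self, ha.2]

theorem stab_fin [CompactSpace X] [PathConnectedSpace X] (S : Seg X) (hE : Ess X) (hD : Dbl X)
    (p : X) : {a : X ≃ᵢ X | a ∈ TrG X ∧ a p = p}.Finite := by
  refine fin_of_no_inv (H := kgrp_stab p) hD ?_ fun a ha h2 => trg_free S hE ha.1 h2 ha.2
  intro a ha
  refine ⟨cl_TrG a fun η hη => ?_, ?_⟩
  · obtain ⟨b, hb, h⟩ := ha η hη
    exact ⟨b, hb.1, h⟩
  · refine dist_le_zero.1 (le_of_forall_pos_le_add fun η hη => ?_)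
    obtain ⟨b, hb, h⟩ := ha η hη
    have h1 := h p
    rw [hb.2] at h1
    rw [zero_add]
    exact h1

theorem flow_mem (hNB : NB X) (hfin : {T : Set X | ∃ γ, CG γ ∧ T = range γ}.Finite)
    {ψ : ℝ → X → X} (hψ : MFlow ψ) (t : ℝ) : hψ.e t ∈ TrG X := by
  letI : MulAction (Multiplicative ℝ) X :=
    { smul := fun a x => ψ a.toAdd x
      one_smul := fun x => hψ.zero x
      mul_smul := fun a b x => hψ.add a.toAdd b.toAdd x }
  rw [mem_TrG]
  intro γ hγ
  refine shift (G := Multiplicative ℝ) hNB ?_ (fun a => hψ.iso a.toAdd) hfin hγ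
    (Multiplicative.ofAdd t)
  intro m hm a
  refine ⟨Multiplicative.ofAdd (a.toAdd / m), ?_⟩
  have h1 : (m : ℝ) ≠ 0 := Nat.cast_ne_zero.2 hm.ne'
  rw [← ofAdd_nsmul, nsmul_eq_mul, mul_div_cancel₀ _ h1, ofAdd_toAdd]

end Vale.Agent.P216
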