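import Vale.Agent.P216B.FlowB
import Vale.Agent.P216B.Defs
import Vale.Agent.P216.Main

/-! P216B Main: assembly. -/

open Set Filter Topology
open scoped ContDiff Manifold

noncomputable section

namespace Vale.Agent.P216

open Vale.Agent.P255 Vale.Agent.P234

variable {E M : Type} [NormedAddCommGroup E] [NormedSpace ℝ E] [FiniteDimensional ℝ E]
  [TopologicalSpace M] [ChartedSpace E M] [IsManifold 𝓘(ℝ, E) ∞ M] [T2Space M] [CompactSpace M]
  [ConnectedSpace M] (g : Metric E M)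

theorem ext_rm : @Ext M (rm g) := by
  obtain ⟨ε, hε, hs⟩ := short g
  refine ⟨ε / 3, by positivity, fun x y hxy => ?_⟩
  obtain ⟨u, rfl, hu⟩ := hopf_rinow g x y
  have hxy' : rdist g x (g.exp x u) ≤ ε / 3 := hxy
  have hu' : rdist g x (g.exp x u) = nrm g x u := hu
  have key : ∀ s t, s ≤ t → t - s ≤ 2 →
      rdist g (g.geo x u s) (g.geo x u t) = rdist g x (g.exp x u) * (t - s) := by
    intro s t hst h2
    have h0 : 0 ≤ t - s := sub_nonneg.2 hst
    have hn : nrm g (g.geo x u s) ((t - s) • vel E (g.geo x u) s) = (t - s) * nrm g x u := by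
      rw [nrm_smul, nrm_vel_geo, abs_of_nonneg h0]
    have hlt : nrm g (g.geo x u s) ((t - s) • vel E (g.geo x u) s) < ε := by
      rw [hn, ← hu']
      nlinarith [rdist_nonneg g x (g.exp x u)]
    have hm : rdist g _ _ = _ := ((hs _).1 _ hlt).2.1
    rw [g.exp_smul, g.geo_add, add_sub_cancel, hn] at hm
    rw [hm, hu', mul_comm]
  refine ⟨g.geo x u, g.geo_zero x u, rfl, fun s t h => ?_⟩
  change rdist g _ _ = rdist g _ _ * _
  rcases le_total s t with hst | hst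
  · rw [abs_sub_comm, abs_of_nonneg (sub_nonneg.2 hst)] at h ⊢
    exact key s t hst h
  · rw [abs_of_nonneg (sub_nonneg.2 hst)] at h ⊢
    rw [rdist_comm]
    exact key t s hst h

theorem mainB {ψ : ℝ → M → M} (hψ : IsoFlow g ψ) (hne : ∃ t x, ψ t x ≠ x)
    (h : (∀ T, (∀ x, ψ T (ψ T x) = x) → ∃ p, ψ T p = p) ∨
      ∃ ψ' : ℝ → M → M, IsoFlow g ψ' ∧ ∃ s, ∀ t, ψ' s ≠ ψ t) : InfMany g := by
  obtain ⟨d, ι, hι, hc⟩ := P265.L.exists_emb (E := E) (M := M)
  have hE : Ess M := ess_emb hι fun p => ⟨(hc p).choose⟩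
  have hP : PathConnectedSpace M := ⟨inferInstance, fun x y => by
    obtain ⟨γ, h1, rfl, rfl⟩ := exists_curve g x y
    exact ⟨⟨⟨fun t => γ t, h1.continuous.comp continuous_subtype_val⟩, rfl, rfl⟩⟩⟩
  obtain ⟨S, -⟩ := exists_seg g
  letI := rm g
  have hm : ∀ φ : ℝ → M → M, IsoFlow g φ → MFlow φ := fun φ h =>
    ⟨h.zero, h.add, h.cont, fun t => Isometry.of_dist_eq (h.iso t)⟩
  intro hfin
  have hfin' : {T : Set M | ∃ γ, CG γ ∧ T = range γ}.Finite := by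
    refine hfin.subset ?_
    rintro _ ⟨γ, ⟨⟨a, ha, hl⟩, hp⟩, rfl⟩
    refine ⟨γ, ⟨lg_geo g hl, ?_, hp⟩, rfl⟩
    obtain ⟨δ, hδ, hl⟩ := hl
    refine ⟨δ, 0, fun e => ?_⟩
    have := hl δ 0 (by rw [sub_zero, abs_of_pos hδ])
    rw [e, dist_self, sub_zero, abs_of_pos hδ] at this
    exact (mul_pos ha hδ).ne this
  obtain ⟨⟨T, h1, h2⟩, h3⟩ := flow_main S (nb g) hE (ext_rm g) hfin' (hm ψ hψ) hne
  rcases h with h | ⟨ψ', h, s, hs⟩
  · obtain ⟨p, hp⟩ := h T h1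
    exact h2 p hp
  · obtain ⟨t, ht⟩ := h3 ψ' (hm ψ' h) s
    exact hs t ht

end Vale.Agent.P216
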